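import Vale.Agent.P236JB.Z.T1n0

/-!
# P236JB / Z : the data of a group of columns (generated)
-/

set_option maxRecDepth 100000

namespace Vale.Agent.P236JB.Z

open Vale.Agent.P236JW

noncomputable def up1 : D4 := (D4.cons z1_0
 (D4.cons z1_1
 (D4.cons z1_2
 (D4.cons z1_3
 (D4.cons z1_4
 D4.nil)))))

noncomputable def bs1 : Bs := ⟨(nat_lit 90),
  (nat_lit 111),
  (nat_lit 0x5a545251594c3f54473a552d524538532b461e5043365129441c4f42355028431b56493c572f4a223d155043365129441c370f584b3e59314c243f175a320a574a3d58304b233e1659310955483b562e49213c14572f07534639542c471f3a12552d05514437522a451d3810532b03),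
  up1,
  (nat_lit 348345926401),
  (nat_lit 71),
  (nat_lit 0x403030303030303030303030303020202020202020202020202020202020202020101010101010101010101010101010101010100000000000000000000000000000000000000),
  (nat_lit 0xc0b0a090807060504030201001211100f0e0d0c0b0a090807060504030201001211100f0e0d0c0b0a090807060504030201001211100f0e0d0c0b0a09080706050403020100)⟩

end Vale.Agent.P236JB.Z
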