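import Vale.Agent.P236JB.Z.T12n0
import Vale.Agent.P236JB.Z.T12n1

/-!
# P236JB / Z : the data of a group of columns (generated)
-/

set_option maxRecDepth 100000

namespace Vale.Agent.P236JB.Z

open Vale.Agent.P236JW

noncomputable def up12 : D4 := (D4.cons z12_0
 (D4.cons z12_1
 (D4.cons z12_2
 (D4.cons z12_3
 (D4.cons z12_4
 (D4.cons z12_5
 (D4.cons z12_6
 (D4.cons z12_7
 (D4.cons z12_8
 (D4.cons z12_9
 (D4.cons z12_10
 (D4.cons z12_11
 (D4.cons z12_12
 (D4.cons z12_13
 (D4.cons z12_14
 (D4.cons z12_15
 (D4.cons z12_16
 (D4.cons z12_17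
 (D4.cons z12_18
 (D4.cons z12_19
 (D4.cons z12_20
 (D4.cons z12_21
 (D4.cons z12_22
 (D4.cons z12_23
 (D4.cons z12_24
 (D4.cons z12_25
 (D4.cons z12_26
 (D4.cons z12_27
 (D4.cons z12_28
 (D4.cons z12_29
 (D4.cons z12_30
 (D4.cons z12_31
 (D4.cons z12_32
 (D4.cons z12_33
 (D4.cons z12_34
 (D4.cons z12_35
 (D4.cons z12_36
 (D4.cons z12_37
 (D4.cons z12_38
 (D4.cons z12_39
 D4.nil))))))))))))))))))))))))))))))))))))))))

noncomputable def bs12 : Bs := ⟨(nat_lit 90),
  (nat_lit 123),
  (nat_lit 0x595757555251504e594c594c574a574a5447524550434e414e41594c3f594c3f574a3d55483b5346395043364e41345a4d40334e26584b3e59314c2456493c572f4a2254473a552d4820524538532b461e4f42355028431b5a4d40334e264119584b3e59314c243f1756493c572f4a223d1554473a552d48203b13),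
  up12,
  (nat_lit 0x5957575555535151504e4c4b4a4a48484646454442403f3e3d3b393735332422201e1c1a18161412),
  (nat_lit 262),
  (nat_lit 0x27262524232221201f1e1d1d1d1d1c1c1c1c1b1b1b1b1a1a1a1a191919191818181817171717161616161515151514141414131313131212121212121211111111111111101010101010100f0f0f0f0f0f0f0e0e0e0e0e0e0e0d0d0d0d0d0d0d0c0c0c0c0c0c0c0b0b0b0b0b0b0b0a0a0a0a0a0a0a0a0a0a09090909090909090909090909080808080808080808080808080707070707070707070707070706060606060606060606060606050505050505050505050505050404040404040404040404040403030303030303030303030303030303020202020202020202020202020202020101010101010101010101010101010100000000000000000000000000000000),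
  (nat_lit 0x3020100030201000302010003020100030201000302010003020100030201000302010003020100030201000605040302010006050403020100060504030201000605040302010006050403020100060504030201000605040302010006050403020100090807060504030201000c0b0a090807060504030201000c0b0a090807060504030201000c0b0a090807060504030201000c0b0a090807060504030201000c0b0a090807060504030201000c0b0a090807060504030201000f0e0d0c0b0a090807060504030201000f0e0d0c0b0a090807060504030201000f0e0d0c0b0a090807060504030201000f0e0d0c0b0a09080706050403020100)⟩

end Vale.Agent.P236JB.Z
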