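import Vale.Agent.P236JB.Z.T13n0

/-!
# P236JB / Z : the data of a group of columns (generated)
-/

set_option maxRecDepth 100000

namespace Vale.Agent.P236JB.Z

open Vale.Agent.P236JW

noncomputable def up13 : D4 := (D4.cons z13_0
 (D4.cons z13_1
 (D4.cons z13_2
 (D4.cons z13_3
 (D4.cons z13_4
 (D4.cons z13_5
 (D4.cons z13_6
 (D4.cons z13_7
 (D4.cons z13_8
 (D4.cons z13_9
 (D4.cons z13_10
 (D4.cons z13_11
 (D4.cons z13_12
 (D4.cons z13_13
 (D4.cons z13_14
 (D4.cons z13_15
 (D4.cons z13_16
 (D4.cons z13_17
 (D4.cons z13_18
 (D4.cons z13_19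
 (D4.cons z13_20
 (D4.cons z13_21
 (D4.cons z13_22
 (D4.cons z13_23
 (D4.cons z13_24
 (D4.cons z13_25
 (D4.cons z13_26
 (D4.cons z13_27
 (D4.cons z13_28
 (D4.cons z13_29
 (D4.cons z13_30
 (D4.cons z13_31
 (D4.cons z13_32
 (D4.cons z13_33
 D4.nil))))))))))))))))))))))))))))))))))

noncomputable def bs13 : Bs := ⟨(nat_lit 90),
  (nat_lit 116),
  (nat_lit 0x5a58575654524f5a4d5a4d584b56495447524550434f424e415a4d40584b3e56493c54473a5245385043364e41344f27594c3f5a324d25574a3d58304b2355483b562e4921534639542c471f514437522a451d4f42355028431b5a4d40334e264119584b3e59314c243f1756493c572f4a223d15),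
  up13,
  (nat_lit 0x595757555251504e4c4c4a4a47454341413f3f3d3b393634262422201e1b19171513),
  (nat_lit 235),
  (nat_lit 0x21201f1e1d1c1b1a191919191818181817171717161616161515151514141414131313131212121211111111101010101010100f0f0f0f0f0f0f0e0e0e0e0e0e0e0d0d0d0d0d0d0d0c0c0c0c0c0c0c0b0b0b0b0b0b0b0a0a0a0a0a0a0a09090909090909090909090909080808080808080808080808080707070707070707070707070706060606060606060606060606050505050505050505050505050404040404040404040404040403030303030303030303030303030303020202020202020202020202020202020101010101010101010101010101010100000000000000000000000000000000),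
  (nat_lit 0x30201000302010003020100030201000302010003020100030201000302010003020100060504030201000605040302010006050403020100060504030201000605040302010006050403020100060504030201000c0b0a090807060504030201000c0b0a090807060504030201000c0b0a090807060504030201000c0b0a090807060504030201000c0b0a090807060504030201000c0b0a090807060504030201000f0e0d0c0b0a090807060504030201000f0e0d0c0b0a090807060504030201000f0e0d0c0b0a090807060504030201000f0e0d0c0b0a09080706050403020100)⟩

end Vale.Agent.P236JB.Z
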