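import Vale.Agent.P236JB.Z.T14n0

/-!
# P236JB / Z : the data of a group of columns (generated)
-/

set_option maxRecDepth 100000

namespace Vale.Agent.P236JB.Z

open Vale.Agent.P236JW

noncomputable def up14 : D4 := (D4.cons z14_0
 (D4.cons z14_1
 (D4.cons z14_2
 (D4.cons z14_3
 (D4.cons z14_4
 (D4.cons z14_5
 (D4.cons z14_6
 (D4.cons z14_7
 (D4.cons z14_8
 (D4.cons z14_9
 (D4.cons z14_10
 (D4.cons z14_11
 (D4.cons z14_12
 (D4.cons z14_13
 (D4.cons z14_14
 (D4.cons z14_15
 (D4.cons z14_16
 (D4.cons z14_17
 (D4.cons z14_18
 (D4.cons z14_19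
 (D4.cons z14_20
 (D4.cons z14_21
 (D4.cons z14_22
 (D4.cons z14_23
 (D4.cons z14_24
 (D4.cons z14_25
 (D4.cons z14_26
 (D4.cons z14_27
 (D4.cons z14_28
 (D4.cons z14_29
 (D4.cons z14_30
 (D4.cons z14_31
 D4.nil))))))))))))))))))))))))))))))))

noncomputable def bs14 : Bs := ⟨(nat_lit 90),
  (nat_lit 107),
  (nat_lit 0x5a5a5855534f5a4d574a55485346514451444f424f425a4d40584b3e56493c53463951443750433651294e41344f27594c3f5a324d25574a3d58304b2355483b562e4921524538532b461e5043365129441c4e41344f27421a594c3f5a324d254018574a3d58304b233e16),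
  up14,
  (nat_lit 0x5a58575654524f4d4d4b494745434241403e3c3a3836272523211f1d1b191715),
  (nat_lit 221),
  (nat_lit 0x1f1e1d1c1b1a191818181817171717161616161515151514141414131313131212121211111111101010100f0f0f0f0f0f0f0e0e0e0e0e0e0e0d0d0d0d0d0d0d0c0c0c0c0c0c0c0b0b0b0b0b0b0b0a0a0a0a0a0a0a09090909090909090909080808080808080808080808080707070707070707070707070706060606060606060606060606050505050505050505050505050404040404040404040404040403030303030303030303030303020202020202020202020202020202020101010101010101010101010101010100000000000000000000000000000000),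
  (nat_lit 0x30201000302010003020100030201000302010003020100030201000302010003020100060504030201000605040302010006050403020100060504030201000605040302010006050403020100090807060504030201000c0b0a090807060504030201000c0b0a090807060504030201000c0b0a090807060504030201000c0b0a090807060504030201000c0b0a090807060504030201000c0b0a090807060504030201000f0e0d0c0b0a090807060504030201000f0e0d0c0b0a090807060504030201000f0e0d0c0b0a09080706050403020100)⟩

end Vale.Agent.P236JB.Z
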