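import Vale.Agent.P236JB.Z.T15n0

/-!
# P236JB / Z : the data of a group of columns (generated)
-/

set_option maxRecDepth 100000

namespace Vale.Agent.P236JB.Z

open Vale.Agent.P236JW

noncomputable def up15 : D4 := (D4.cons z15_0
 (D4.cons z15_1
 (D4.cons z15_2
 (D4.cons z15_3
 (D4.cons z15_4
 (D4.cons z15_5
 (D4.cons z15_6
 (D4.cons z15_7
 (D4.cons z15_8
 (D4.cons z15_9
 (D4.cons z15_10
 (D4.cons z15_11
 (D4.cons z15_12
 (D4.cons z15_13
 (D4.cons z15_14
 (D4.cons z15_15
 (D4.cons z15_16
 (D4.cons z15_17
 (D4.cons z15_18
 (D4.cons z15_19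
 (D4.cons z15_20
 (D4.cons z15_21
 (D4.cons z15_22
 (D4.cons z15_23
 (D4.cons z15_24
 (D4.cons z15_25
 (D4.cons z15_26
 (D4.cons z15_27
 (D4.cons z15_28
 D4.nil)))))))))))))))))))))))))))))

noncomputable def bs15 : Bs := ⟨(nat_lit 90),
  (nat_lit 99),
  (nat_lit 0x5a59504e594c574a554853465245514450434e41594c3f574a3d55483b534639514437522a4f423550285a4d40334e26584b3e59314c2456493c572f4a2254473a552d4820524538532b461e5043365129441c4e41344f27421a594c3f5a324d254018),
  up15,
  (nat_lit 0x5a5a5855534f4d4a484644444242403e3c393729272523211e1c1a1816),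
  (nat_lit 203),
  (nat_lit 0x1c1b1a191817161616161515151514141414131313131212121211111111101010100f0f0f0f0e0e0e0e0e0e0e0d0d0d0d0d0d0d0c0c0c0c0c0c0c0b0b0b0b0b0b0b0a0a0a0a0a0a0a09090909090909090909080808080808080808080707070707070707070707070706060606060606060606060606050505050505050505050505050404040404040404040404040403030303030303030303030303020202020202020202020202020101010101010101010101010101010100000000000000000000000000000000),
  (nat_lit 0x302010003020100030201000302010003020100030201000302010003020100060504030201000605040302010006050403020100060504030201000605040302010009080706050403020100090807060504030201000c0b0a090807060504030201000c0b0a090807060504030201000c0b0a090807060504030201000c0b0a090807060504030201000c0b0a090807060504030201000c0b0a090807060504030201000f0e0d0c0b0a090807060504030201000f0e0d0c0b0a09080706050403020100)⟩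

end Vale.Agent.P236JB.Z
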