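import Vale.Agent.P236JB.Z.T16n0

/-!
# P236JB / Z : the data of a group of columns (generated)
-/

set_option maxRecDepth 100000

namespace Vale.Agent.P236JB.Z

open Vale.Agent.P236JW

noncomputable def up16 : D4 := (D4.cons z16_0
 (D4.cons z16_1
 (D4.cons z16_2
 (D4.cons z16_3
 (D4.cons z16_4
 (D4.cons z16_5
 (D4.cons z16_6
 (D4.cons z16_7
 (D4.cons z16_8
 (D4.cons z16_9
 (D4.cons z16_10
 (D4.cons z16_11
 (D4.cons z16_12
 (D4.cons z16_13
 (D4.cons z16_14
 (D4.cons z16_15
 (D4.cons z16_16
 (D4.cons z16_17
 (D4.cons z16_18
 (D4.cons z16_19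
 (D4.cons z16_20
 (D4.cons z16_21
 (D4.cons z16_22
 (D4.cons z16_23
 (D4.cons z16_24
 (D4.cons z16_25
 D4.nil))))))))))))))))))))))))))

noncomputable def bs16 : Bs := ⟨(nat_lit 90),
  (nat_lit 93),
  (nat_lit 0x52505a4d584b5649544754475245524550434e41594c3f56493c54473a534639542c514437522a4f423550285a4d40334e26584b3e59314c2455483b562e4921534639542c471f514437522a451d4f42355028431b5a4d40334e264119),
  up16,
  (nat_lit 0x5a59504e4c4a4846454443413f3d3b392a28262422201e1c1a18),
  (nat_lit 191),
  (nat_lit 0x191817161515151514141414131313131212121211111111101010100f0f0f0f0e0e0e0e0d0d0d0d0d0d0d0c0c0c0c0c0c0c0b0b0b0b0b0b0b0a0a0a0a0a0a0a09090909090909090909080808080808080808080707070707070707070707070706060606060606060606060606050505050505050505050505050404040404040404040404040403030303030303030303030303020202020202020202020202020101010101010101010101010100000000000000000000000000000000),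
  (nat_lit 0x3020100030201000302010003020100030201000302010003020100030201000605040302010006050403020100060504030201000605040302010009080706050403020100090807060504030201000c0b0a090807060504030201000c0b0a090807060504030201000c0b0a090807060504030201000c0b0a090807060504030201000c0b0a090807060504030201000c0b0a090807060504030201000c0b0a090807060504030201000f0e0d0c0b0a09080706050403020100)⟩

end Vale.Agent.P236JB.Z
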