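import Vale.Agent.P236JB.Z.T17n0

/-!
# P236JB / Z : the data of a group of columns (generated)
-/

set_option maxRecDepth 100000

namespace Vale.Agent.P236JB.Z

open Vale.Agent.P236JW

noncomputable def up17 : D4 := (D4.cons z17_0
 (D4.cons z17_1
 (D4.cons z17_2
 (D4.cons z17_3
 (D4.cons z17_4
 (D4.cons z17_5
 (D4.cons z17_6
 (D4.cons z17_7
 (D4.cons z17_8
 (D4.cons z17_9
 (D4.cons z17_10
 (D4.cons z17_11
 (D4.cons z17_12
 (D4.cons z17_13
 (D4.cons z17_14
 (D4.cons z17_15
 (D4.cons z17_16
 (D4.cons z17_17
 (D4.cons z17_18
 (D4.cons z17_19
 (D4.cons z17_20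
 (D4.cons z17_21
 (D4.cons z17_22
 (D4.cons z17_23
 D4.nil))))))))))))))))))))))))

noncomputable def bs17 : Bs := ⟨(nat_lit 90),
  (nat_lit 90),
  (nat_lit 0x53514f5a4d584b564955485447534651444f425a4d40584b3e56493c54473a552d524538532b50433651294e41344f27594c3f5a324d25574a3d58304b2355483b562e4921534639542c471f514437522a451d4f42355028431b),
  up17,
  (nat_lit 0x52504d4b494747454543413f3c3a2c2a282624211f1d1b19),
  (nat_lit 183),
  (nat_lit 0x17161515151514141414131313131212121211111111101010100f0f0f0f0e0e0e0e0d0d0d0d0c0c0c0c0c0c0c0b0b0b0b0b0b0b0a0a0a0a0a0a0a09090909090909090909080808080808080808080707070707070707070706060606060606060606060606050505050505050505050505050404040404040404040404040403030303030303030303030303020202020202020202020202020101010101010101010101010100000000000000000000000000000000),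
  (nat_lit 0x302010003020100030201000302010003020100030201000302010003020100030201000605040302010006050403020100060504030201000908070605040302010009080706050403020100090807060504030201000c0b0a090807060504030201000c0b0a090807060504030201000c0b0a090807060504030201000c0b0a090807060504030201000c0b0a090807060504030201000c0b0a090807060504030201000f0e0d0c0b0a09080706050403020100)⟩

end Vale.Agent.P236JB.Z
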