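import Vale.Agent.P236JB.Z.T10n0
import Vale.Agent.P236JB.Z.T10n1

/-!
# P236JB / Z : the data of a group of columns (generated)
-/

set_option maxRecDepth 100000

namespace Vale.Agent.P236JB.Z

open Vale.Agent.P236JW

noncomputable def up10 : D4 := (D4.cons z10_0
 (D4.cons z10_1
 (D4.cons z10_2
 (D4.cons z10_3
 (D4.cons z10_4
 (D4.cons z10_5
 (D4.cons z10_6
 (D4.cons z10_7
 (D4.cons z10_8
 (D4.cons z10_9
 (D4.cons z10_10
 (D4.cons z10_11
 (D4.cons z10_12
 (D4.cons z10_13
 (D4.cons z10_14
 (D4.cons z10_15
 (D4.cons z10_16
 (D4.cons z10_17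
 (D4.cons z10_18
 (D4.cons z10_19
 (D4.cons z10_20
 (D4.cons z10_21
 (D4.cons z10_22
 (D4.cons z10_23
 (D4.cons z10_24
 (D4.cons z10_25
 (D4.cons z10_26
 (D4.cons z10_27
 (D4.cons z10_28
 (D4.cons z10_29
 (D4.cons z10_30
 (D4.cons z10_31
 (D4.cons z10_32
 (D4.cons z10_33
 (D4.cons z10_34
 (D4.cons z10_35
 (D4.cons z10_36
 (D4.cons z10_37
 (D4.cons z10_38
 (D4.cons z10_39
 (D4.cons z10_40
 (D4.cons z10_41
 (D4.cons z10_42
 (D4.cons z10_43
 D4.nil))))))))))))))))))))))))))))))))))))))))))))

noncomputable def bs10 : Bs := ⟨(nat_lit 90),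
  (nat_lit 151),
  (nat_lit 0x5a585656545452514f4e5a4d584b584b5649564955485447544752455245514450434f424f425a4d40584b3e584b3e56493c56493c54473a5245385043365a4d4033584b3e5931574a3d58304b2355483b562e4921534639542c471f514437522a451d4f42355028431b594c3f5a324d254018574a3d58304b233e1655483b562e49213c14534639542c471f3a12514437522a451d3810),
  up10,
  (nat_lit 0x5a585654545252504e4e4b494948474745454443434242413f3d3c3c3b3a36343230211f1d1b19171513110f),
  (nat_lit 290),
  (nat_lit 0x2b2a292827262524232221212121202020201f1f1f1f1e1e1e1e1d1d1d1d1c1c1c1c1b1b1b1b1a1a1a1a191919191818181817171717161616161515151514141414131313131313131212121212121211111111111111101010101010100f0f0f0f0f0f0f0e0e0e0e0e0e0e0d0d0d0d0d0d0d0c0c0c0c0c0c0c0b0b0b0b0b0b0b0b0b0b0a0a0a0a0a0a0a0a0a0a09090909090909090909090909080808080808080808080808080707070707070707070707070706060606060606060606060606050505050505050505050505050505050404040404040404040404040404040403030303030303030303030303030303020202020202020202020202020202020101010101010101010101010101010100000000000000000000000000000000),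
  (nat_lit 0x302010003020100030201000302010003020100030201000302010003020100030201000302010003020100030201000302010003020100060504030201000605040302010006050403020100060504030201000605040302010006050403020100060504030201000605040302010009080706050403020100090807060504030201000c0b0a090807060504030201000c0b0a090807060504030201000c0b0a090807060504030201000c0b0a090807060504030201000f0e0d0c0b0a090807060504030201000f0e0d0c0b0a090807060504030201000f0e0d0c0b0a090807060504030201000f0e0d0c0b0a090807060504030201000f0e0d0c0b0a090807060504030201000f0e0d0c0b0a09080706050403020100)⟩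

end Vale.Agent.P236JB.Z
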