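import Vale.Agent.P236JB.Z.T11n0
import Vale.Agent.P236JB.Z.T11n1

/-!
# P236JB / Z : the data of a group of columns (generated)
-/

set_option maxRecDepth 100000

namespace Vale.Agent.P236JB.Z

open Vale.Agent.P236JW

noncomputable def up11 : D4 := (D4.cons z11_0
 (D4.cons z11_1
 (D4.cons z11_2
 (D4.cons z11_3
 (D4.cons z11_4
 (D4.cons z11_5
 (D4.cons z11_6
 (D4.cons z11_7
 (D4.cons z11_8
 (D4.cons z11_9
 (D4.cons z11_10
 (D4.cons z11_11
 (D4.cons z11_12
 (D4.cons z11_13
 (D4.cons z11_14
 (D4.cons z11_15
 (D4.cons z11_16
 (D4.cons z11_17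
 (D4.cons z11_18
 (D4.cons z11_19
 (D4.cons z11_20
 (D4.cons z11_21
 (D4.cons z11_22
 (D4.cons z11_23
 (D4.cons z11_24
 (D4.cons z11_25
 (D4.cons z11_26
 (D4.cons z11_27
 (D4.cons z11_28
 (D4.cons z11_29
 (D4.cons z11_30
 (D4.cons z11_31
 (D4.cons z11_32
 (D4.cons z11_33
 (D4.cons z11_34
 (D4.cons z11_35
 (D4.cons z11_36
 (D4.cons z11_37
 (D4.cons z11_38
 (D4.cons z11_39
 (D4.cons z11_40
 (D4.cons z11_41
 (D4.cons z11_42
 (D4.cons z11_43
 D4.nil))))))))))))))))))))))))))))))))))))))))))))

noncomputable def bs11 : Bs := ⟨(nat_lit 90),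
  (nat_lit 138),
  (nat_lit 0x5957575555535151504e594c584b574a574a5548554853465346524551444f425a4d40594c3f584b3e574a3d55483b5346395144374f42355a4d4033584b3e59314c2456493c572f4a2254473a552d4820524538532b461e5043365129441c4e41344f27421a594c3f5a324d254018574a3d58304b233e1655483b562e49213c14534639542c471f3a12),
  up11,
  (nat_lit 0x5a585656545452514f4e4d4b4b4949484747454544434242403e3e3c3c3a3836333123211f1d1b1816141210),
  (nat_lit 287),
  (nat_lit 0x2b2a292827262524232221212121202020201f1f1f1f1e1e1e1e1d1d1d1d1c1c1c1c1b1b1b1b1a1a1a1a191919191818181817171717161616161515151514141414131313131313131212121212121211111111111111101010101010100f0f0f0f0f0f0f0e0e0e0e0e0e0e0d0d0d0d0d0d0d0c0c0c0c0c0c0c0b0b0b0b0b0b0b0b0b0b0a0a0a0a0a0a0a0a0a0a09090909090909090909090909080808080808080808080808080707070707070707070707070706060606060606060606060606050505050505050505050505050404040404040404040404040404040403030303030303030303030303030303020202020202020202020202020202020101010101010101010101010101010100000000000000000000000000000000),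
  (nat_lit 0x302010003020100030201000302010003020100030201000302010003020100030201000302010003020100030201000302010003020100060504030201000605040302010006050403020100060504030201000605040302010006050403020100060504030201000605040302010009080706050403020100090807060504030201000c0b0a090807060504030201000c0b0a090807060504030201000c0b0a090807060504030201000c0b0a090807060504030201000c0b0a090807060504030201000f0e0d0c0b0a090807060504030201000f0e0d0c0b0a090807060504030201000f0e0d0c0b0a090807060504030201000f0e0d0c0b0a090807060504030201000f0e0d0c0b0a09080706050403020100)⟩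

end Vale.Agent.P236JB.Z
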