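import Vale.Agent.P236JB.Z.T2n0
import Vale.Agent.P236JB.Z.T2n1
import Vale.Agent.P236JB.Z.T2n2

/-!
# P236JB / Z : the data of a group of columns (generated)
-/

set_option maxRecDepth 100000

namespace Vale.Agent.P236JB.Z

open Vale.Agent.P236JW

noncomputable def up2 : D4 := (D4.cons z2_0
 (D4.cons z2_1
 (D4.cons z2_2
 (D4.cons z2_3
 (D4.cons z2_4
 (D4.cons z2_5
 (D4.cons z2_6
 (D4.cons z2_7
 (D4.cons z2_8
 (D4.cons z2_9
 (D4.cons z2_10
 (D4.cons z2_11
 (D4.cons z2_12
 (D4.cons z2_13
 (D4.cons z2_14
 (D4.cons z2_15
 D4.nil))))))))))))))))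

noncomputable def bs2 : Bs := ⟨(nat_lit 90),
  (nat_lit 178),
  (nat_lit 0x5a5a5856545452554852455a4d40594c3f574a3d50433655483b562e54473a552d584b3e59314c2456493c572f4a2254473a552d4820524538532b461e524538532b461e5043365129441c594c3f5a324d254018584b3e59314c243f1756493c572f4a223d15534639542c471f3a125043365129441c370f5a4d40334e264119340c584b3e59314c243f175a320a56493c572f4a223d1558300854473a552d48203b13562e06524538532b461e3911542c04),
  up2,
  (nat_lit 0x5a5452513f2d1e1c1b150f0a09070503),
  (nat_lit 187),
  (nat_lit 0xf0e0d0c0b0b0b0b0b0b0b0a0a0a0a0a0a0a0a0a0a09090909090909090909090909080808080808080808080808080707070707070707070707070706060606060606060606060606060606050505050505050505050505050505050404040404040404040404040404040404040403030303030303030303030303030303030303020202020202020202020202020202020202020101010101010101010101010101010101010100000000000000000000000000000000000000),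
  (nat_lit 0x6050403020100090807060504030201000c0b0a090807060504030201000c0b0a090807060504030201000c0b0a090807060504030201000f0e0d0c0b0a090807060504030201000f0e0d0c0b0a090807060504030201001211100f0e0d0c0b0a090807060504030201001211100f0e0d0c0b0a090807060504030201001211100f0e0d0c0b0a090807060504030201001211100f0e0d0c0b0a090807060504030201001211100f0e0d0c0b0a09080706050403020100)⟩

end Vale.Agent.P236JB.Z
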