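import Vale.Agent.P236JB.Z.T4n0
import Vale.Agent.P236JB.Z.T4n1
import Vale.Agent.P236JB.Z.T4n2
import Vale.Agent.P236JB.Z.T4n3
import Vale.Agent.P236JB.Z.T4n4

/-!
# P236JB / Z : the data of a group of columns (generated)
-/

set_option maxRecDepth 100000

namespace Vale.Agent.P236JB.Z

open Vale.Agent.P236JW

noncomputable def up4 : D4 := (D4.cons z4_0
 (D4.cons z4_1
 (D4.cons z4_2
 (D4.cons z4_3
 (D4.cons z4_4
 (D4.cons z4_5
 (D4.cons z4_6
 (D4.cons z4_7
 (D4.cons z4_8
 (D4.cons z4_9
 (D4.cons z4_10
 (D4.cons z4_11
 (D4.cons z4_12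
 (D4.cons z4_13
 (D4.cons z4_14
 (D4.cons z4_15
 (D4.cons z4_16
 (D4.cons z4_17
 (D4.cons z4_18
 (D4.cons z4_19
 (D4.cons z4_20
 (D4.cons z4_21
 (D4.cons z4_22
 (D4.cons z4_23
 (D4.cons z4_24
 (D4.cons z4_25
 (D4.cons z4_26
 (D4.cons z4_27
 (D4.cons z4_28
 (D4.cons z4_29
 (D4.cons z4_30
 (D4.cons z4_31
 (D4.cons z4_32
 (D4.cons z4_33
 (D4.cons z4_34
 (D4.cons z4_35
 (D4.cons z4_36
 (D4.cons z4_37
 (D4.cons z4_38
 (D4.cons z4_39
 (D4.cons z4_40
 D4.nil)))))))))))))))))))))))))))))))))))))))))

noncomputable def bs4 : Bs := ⟨(nat_lit 90),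
  (nat_lit 210),
  (nat_lit 0x5a59595857575555524e594c5649554854475346534651444f424f425a4d405a4d40584b3e514437594c3f5a32574a3d583054473a552d514437522a4e41344f27594c3f5a324d25584b3e59314c24574a3d58304b2355483b562e492155483b562e4921534639542c471f524538532b461e4e41344f27421a594c3f5a324d254018574a3d58304b233e1655483b562e49213c14534639542c471f3a125043365129441c370f4e41344f27421a350d594c3f5a324d254018330b574a3d58304b233e1659310955483b562e49213c14572f07),
  up4,
  (nat_lit 0x5a5a5958575655545249484846454240403e3a36302e2a25242321201f1e1e18181612100e0c0a0806),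
  (nat_lit 374),
  (nat_lit 0x2827262524232221201f1f1f1f1e1e1e1e1d1d1d1d1c1c1c1c1b1b1b1b1a1a1a1a191919191919191818181818181817171717171717161616161616161515151515151514141414141414141414131313131313131313131212121212121212121211111111111111111111111111101010101010101010101010100f0f0f0f0f0f0f0f0f0f0f0f0f0e0e0e0e0e0e0e0e0e0e0e0e0e0d0d0d0d0d0d0d0d0d0d0d0d0d0c0c0c0c0c0c0c0c0c0c0c0c0c0b0b0b0b0b0b0b0b0b0b0b0b0b0a0a0a0a0a0a0a0a0a0a0a0a0a09090909090909090909090909090909080808080808080808080808080808080707070707070707070707070707070706060606060606060606060606060606050505050505050505050505050505050404040404040404040404040404040403030303030303030303030303030303030303020202020202020202020202020202020202020101010101010101010101010101010101010100000000000000000000000000000000000000),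
  (nat_lit 0x3020100030201000302010003020100030201000302010006050403020100060504030201000605040302010006050403020100060504030201000908070605040302010009080706050403020100090807060504030201000c0b0a090807060504030201000c0b0a090807060504030201000c0b0a090807060504030201000c0b0a090807060504030201000c0b0a090807060504030201000c0b0a090807060504030201000c0b0a090807060504030201000c0b0a090807060504030201000f0e0d0c0b0a090807060504030201000f0e0d0c0b0a090807060504030201000f0e0d0c0b0a090807060504030201000f0e0d0c0b0a090807060504030201000f0e0d0c0b0a090807060504030201000f0e0d0c0b0a090807060504030201001211100f0e0d0c0b0a090807060504030201001211100f0e0d0c0b0a090807060504030201001211100f0e0d0c0b0a090807060504030201001211100f0e0d0c0b0a09080706050403020100)⟩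

end Vale.Agent.P236JB.Z
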