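import Vale.Agent.P236JB.Z.T7n0
import Vale.Agent.P236JB.Z.T7n1
import Vale.Agent.P236JB.Z.T7n2

/-!
# P236JB / Z : the data of a group of columns (generated)
-/

set_option maxRecDepth 100000

namespace Vale.Agent.P236JB.Z

open Vale.Agent.P236JW

noncomputable def up7 : D4 := (D4.cons z7_0
 (D4.cons z7_1
 (D4.cons z7_2
 (D4.cons z7_3
 (D4.cons z7_4
 (D4.cons z7_5
 (D4.cons z7_6
 (D4.cons z7_7
 (D4.cons z7_8
 (D4.cons z7_9
 (D4.cons z7_10
 (D4.cons z7_11
 (D4.cons z7_12
 (D4.cons z7_13
 (D4.cons z7_14
 (D4.cons z7_15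
 (D4.cons z7_16
 (D4.cons z7_17
 (D4.cons z7_18
 (D4.cons z7_19
 (D4.cons z7_20
 (D4.cons z7_21
 (D4.cons z7_22
 (D4.cons z7_23
 (D4.cons z7_24
 (D4.cons z7_25
 (D4.cons z7_26
 (D4.cons z7_27
 (D4.cons z7_28
 (D4.cons z7_29
 (D4.cons z7_30
 (D4.cons z7_31
 (D4.cons z7_32
 (D4.cons z7_33
 (D4.cons z7_34
 (D4.cons z7_35
 (D4.cons z7_36
 (D4.cons z7_37
 (D4.cons z7_38
 (D4.cons z7_39
 (D4.cons z7_40
 D4.nil)))))))))))))))))))))))))))))))))))))))))

noncomputable def bs7 : Bs := ⟨(nat_lit 90),
  (nat_lit 154),
  (nat_lit 0x5a5a585555535351514f5a4d584b55485447534651444f424f425a4d405a4d40594c3f584b3e56493c54473a5346395245385a4d403355483b562e54473a552d5043365129524538532b461e5043365129441c4e41344f27421a594c3f5a324d254018574a3d58304b233e1655483b562e49213c14534639542c471f3a12514437522a451d38104f42355028431b360e5a4d40334e264119340c),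
  up7,
  (nat_lit 0x5a5a595855545352504f4e4d4b4949484746454343413f3e3a38332d2d28261d1b19171512100e0c0a),
  (nat_lit 296),
  (nat_lit 0x2827262524232221201f1e1d1d1d1d1c1c1c1c1b1b1b1b1a1a1a1a191919191818181817171717161616161515151514141414131313131212121212121211111111111111101010101010100f0f0f0f0f0f0f0e0e0e0e0e0e0e0e0e0e0d0d0d0d0d0d0d0d0d0d0c0c0c0c0c0c0c0c0c0c0b0b0b0b0b0b0b0b0b0b0a0a0a0a0a0a0a0a0a0a0a0a0a09090909090909090909090909080808080808080808080808080707070707070707070707070707070706060606060606060606060606060606050505050505050505050505050505050404040404040404040404040404040403030303030303030303030303030303020202020202020202020202020202020101010101010101010101010101010101010100000000000000000000000000000000000000),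
  (nat_lit 0x30201000302010003020100030201000302010003020100030201000302010003020100030201000302010006050403020100060504030201000605040302010006050403020100090807060504030201000908070605040302010009080706050403020100090807060504030201000c0b0a090807060504030201000c0b0a090807060504030201000c0b0a090807060504030201000f0e0d0c0b0a090807060504030201000f0e0d0c0b0a090807060504030201000f0e0d0c0b0a090807060504030201000f0e0d0c0b0a090807060504030201000f0e0d0c0b0a090807060504030201000f0e0d0c0b0a090807060504030201001211100f0e0d0c0b0a090807060504030201001211100f0e0d0c0b0a09080706050403020100)⟩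

end Vale.Agent.P236JB.Z
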