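import Vale.Agent.P236JB.Z.T9n0
import Vale.Agent.P236JB.Z.T9n1

/-!
# P236JB / Z : the data of a group of columns (generated)
-/

set_option maxRecDepth 100000

namespace Vale.Agent.P236JB.Z

open Vale.Agent.P236JW

noncomputable def up9 : D4 := (D4.cons z9_0
 (D4.cons z9_1
 (D4.cons z9_2
 (D4.cons z9_3
 (D4.cons z9_4
 (D4.cons z9_5
 (D4.cons z9_6
 (D4.cons z9_7
 (D4.cons z9_8
 (D4.cons z9_9
 (D4.cons z9_10
 (D4.cons z9_11
 (D4.cons z9_12
 (D4.cons z9_13
 (D4.cons z9_14
 (D4.cons z9_15
 (D4.cons z9_16
 (D4.cons z9_17
 (D4.cons z9_18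
 (D4.cons z9_19
 (D4.cons z9_20
 (D4.cons z9_21
 (D4.cons z9_22
 (D4.cons z9_23
 (D4.cons z9_24
 (D4.cons z9_25
 (D4.cons z9_26
 (D4.cons z9_27
 (D4.cons z9_28
 (D4.cons z9_29
 (D4.cons z9_30
 (D4.cons z9_31
 (D4.cons z9_32
 (D4.cons z9_33
 (D4.cons z9_34
 (D4.cons z9_35
 (D4.cons z9_36
 (D4.cons z9_37
 (D4.cons z9_38
 (D4.cons z9_39
 (D4.cons z9_40
 (D4.cons z9_41
 (D4.cons z9_42
 D4.nil)))))))))))))))))))))))))))))))))))))))))))

noncomputable def bs9 : Bs := ⟨(nat_lit 90),
  (nat_lit 153),
  (nat_lit 0x5a585654545252504e4e584b56495649554854475447524552455144504350434f424f424e41594c3f574a3d56493c56493c55483b54473a5043364e4134594c3f5a32574a3d583055483b562e4921534639542c471f514437522a451d4f42355028431b5a4d40334e264119584b3e59314c243f1756493c572f4a223d1554473a552d48203b13524538532b461e39115043365129441c370f),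
  up9,
  (nat_lit 0x5a59575554535251514f4c4a484846464444424241403f3d3c3b3b39393633302e201e1c1a181513110f0d),
  (nat_lit 295),
  (nat_lit 0x2a292827262524232221202020201f1f1f1f1e1e1e1e1d1d1d1d1c1c1c1c1b1b1b1b1a1a1a1a191919191818181817171717161616161515151515151514141414141414131313131313131212121212121211111111111111101010101010100f0f0f0f0f0f0f0e0e0e0e0e0e0e0d0d0d0d0d0d0d0c0c0c0c0c0c0c0c0c0c0b0b0b0b0b0b0b0b0b0b0a0a0a0a0a0a0a0a0a0a09090909090909090909090909080808080808080808080808080707070707070707070707070706060606060606060606060606050505050505050505050505050505050404040404040404040404040404040403030303030303030303030303030303020202020202020202020202020202020101010101010101010101010101010100000000000000000000000000000000),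
  (nat_lit 0x3020100030201000302010003020100030201000302010003020100030201000302010003020100030201000605040302010006050403020100060504030201000605040302010006050403020100060504030201000605040302010006050403020100060504030201000908070605040302010009080706050403020100090807060504030201000c0b0a090807060504030201000c0b0a090807060504030201000c0b0a090807060504030201000c0b0a090807060504030201000f0e0d0c0b0a090807060504030201000f0e0d0c0b0a090807060504030201000f0e0d0c0b0a090807060504030201000f0e0d0c0b0a090807060504030201000f0e0d0c0b0a090807060504030201000f0e0d0c0b0a09080706050403020100)⟩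

end Vale.Agent.P236JB.Z
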